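import Vale.Agent.P365.T2.H862.BadSum

/-!
# P365 T2, centre route (helper597): the second Cauchy transform and the size of `|t|²` on the line
of the potential of `z`, in the form with the energy (`z = site`, `V_z ~ nuS`).
-/

set_option linter.all false

namespace P365T2.H597

open MeasureTheory Set P365L P365O P365T1 P365T2.H862 Vale.Agent.P365.J376
open scoped ENNReal

variable {ι : Type*} [Fintype ι] [DecidableEq ι] {A : Matrix ι ι ℝ} {W : ι → ℂ}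

theorem Gr_rezE (hA : A.IsSymm) (hW : ∀ x, (W x).im < 0) (E : ℝ) (z : ι) (u : ℝ) :
    Gr A (rez W z (u - E)) z z = ((u : ℂ) - pz A W E z)⁻¹ := by
  rw [Gr_rez hA hW, pz]
  congr 1
  push_cast
  ring

theorem Gr_WV (hA : A.IsSymm) {E : ℝ} {e : ι → ℝ} (he : ∀ x, 0 < e x) (v : ι → ℝ) (z : ι)
    (u : ℝ) : Gr A (WV E e (Function.update v z u)) z z =
      ((u : ℂ) - pz A (WV E e v) E z)⁻¹ := by
  rw [WV_update, Gr_rezE hA (WV_neg he v)]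

theorem pz_im_pos (hA : A.IsSymm) (hW : ∀ x, (W x).im < 0) (E : ℝ) (z : ι) :
    0 < (pz A W E z).im := by
  rw [pz_im]
  exact P365T2.H862.sz_im_pos hA hW z

/-- comparison of the pole (with energy) and the self-energy -/
theorem inv_pz_le (hA : A.IsSymm) (hW : ∀ x, (W x).im < 0) (E : ℝ) (z : ι) :
    1 / (1 + ‖pz A W E z‖ ^ 2) ≤ (2 + 2 * E ^ 2) / (1 + ‖sg A W z‖ ^ 2) := by
  have h1 := norm_sg_le_norm_sz hA hW z
  have h2 : ‖sz A W z‖ ≤ ‖pz A W E z‖ + |E| := by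
    have h3 : sz A W z = pz A W E z - (E : ℂ) := by rw [pz]; ring
    rw [h3]
    refine (norm_sub_le _ _).trans ?_
    rw [Complex.norm_real, Real.norm_eq_abs]
  have h3 : ‖sz A W z‖ ^ 2 ≤ 2 * ‖pz A W E z‖ ^ 2 + 2 * E ^ 2 := by
    have h4 : ‖sz A W z‖ ^ 2 ≤ (‖pz A W E z‖ + |E|) ^ 2 :=
      pow_le_pow_left₀ (norm_nonneg _) h2 2
    have h5 : |E| ^ 2 = E ^ 2 := sq_abs E
    nlinarith [sq_nonneg (‖pz A W E z‖ - |E|)]
  rw [div_le_div_iff₀ (by positivity) (by positivity)]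
  nlinarith [mul_nonneg (sq_nonneg E) (sq_nonneg ‖pz A W E z‖)]

/-- the constant -/
noncomputable def CBt (lam l : ℝ) : ℝ := 5500 * ((1 + 2 * lam ^ 2) / l ^ 2 + 2)

theorem CBt_nonneg (lam l : ℝ) : 0 ≤ CBt lam l := by unfold CBt; positivity

/-- **(i) a**: the second Cauchy transform of the smooth law -/
theorem norm_beta_le {lam l : ℝ} (hl : 0 < l) (h : l < lam) (hA : A.IsSymm)
    (hW : ∀ x, (W x).im < 0) (E : ℝ) (z : ι) :
    ‖∫ u, Gr A (rez W z (u - E)) z z ^ 2 ∂(nuS lam l)‖ ≤ CBt lam l / (1 + ‖pz A W E z‖ ^ 2) := by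
  have h1 := norm_cauchy2_nuS hl h (pz_im_pos hA hW E z).ne'
  have h2 : ∀ u : ℝ, Gr A (rez W z (u - E)) z z ^ 2 = 1 / ((u : ℂ) - pz A W E z) ^ 2 := by
    intro u
    rw [Gr_rezE hA hW, inv_pow, one_div]
  simp only [h2]
  exact h1

theorem norm_beta_le' {lam l : ℝ} (hl : 0 < l) (h : l < lam) (hA : A.IsSymm)
    (hW : ∀ x, (W x).im < 0) (E : ℝ) (z : ι) :
    ‖∫ u, Gr A (rez W z (u - E)) z z ^ 2 ∂(nuS lam l)‖ ≤
      CBt lam l * (2 + 2 * E ^ 2) / (1 + ‖sg A W z‖ ^ 2) := by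
  refine (norm_beta_le hl h hA hW E z).trans ?_
  have h1 := mul_le_mul_of_nonneg_left (inv_pz_le hA hW E z) (CBt_nonneg lam l)
  calc CBt lam l / (1 + ‖pz A W E z‖ ^ 2) = CBt lam l * (1 / (1 + ‖pz A W E z‖ ^ 2)) := by ring
    _ ≤ _ := h1
    _ = _ := by ring

/-- **(i) a**, in coordinates -/
theorem norm_beta_WV {lam l : ℝ} (hl : 0 < l) (h : l < lam) (hA : A.IsSymm) {E : ℝ}
    {e : ι → ℝ} (he : ∀ x, 0 < e x) (v : ι → ℝ) (z : ι) :
    ‖∫ u, Gr A (WV E e (Function.update v z u)) z z ^ 2 ∂(nuS lam l)‖ ≤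
      CBt lam l / (1 + ‖pz A (WV E e v) E z‖ ^ 2) := by
  simp only [WV_update]
  exact norm_beta_le hl h hA (WV_neg he v) E z

/-- **(i) b**: `1/(1+|s|²) ≤ C |t(u)|²` for `|u| ≤ lam` -/
theorem inv_le_norm_Gr {lam : ℝ} (hA : A.IsSymm) (hW : ∀ x, (W x).im < 0) (E : ℝ) (z : ι)
    {u : ℝ} (hu : |u| ≤ lam) :
    1 / (1 + ‖pz A W E z‖ ^ 2) ≤ 2 * (1 + lam ^ 2) * ‖Gr A (rez W z (u - E)) z z‖ ^ 2 := by
  rw [Gr_rezE hA hW, norm_inv, inv_pow]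
  have hne : (u : ℂ) - pz A W E z ≠ 0 := by
    intro h
    have := congrArg Complex.im h
    simp at this
    exact (pz_im_pos hA hW E z).ne' this
  have h0 : 0 < ‖(u : ℂ) - pz A W E z‖ ^ 2 := by positivity
  have h1 : ‖(u : ℂ) - pz A W E z‖ ≤ |u| + ‖pz A W E z‖ := by
    refine (norm_sub_le _ _).trans ?_
    rw [Complex.norm_real, Real.norm_eq_abs]
  have h2 : ‖(u : ℂ) - pz A W E z‖ ^ 2 ≤ (|u| + ‖pz A W E z‖) ^ 2 :=
    pow_le_pow_left₀ (norm_nonneg _) h1 2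
  have h3 : |u| ^ 2 ≤ lam ^ 2 := pow_le_pow_left₀ (abs_nonneg _) hu 2
  rw [← div_eq_mul_inv, div_le_div_iff₀ (by positivity) h0]
  nlinarith [sq_nonneg (|u| - ‖pz A W E z‖), mul_nonneg (sq_nonneg lam)
    (sq_nonneg ‖pz A W E z‖)]

/-- **(i) b**, in coordinates -/
theorem inv_le_norm_WV {lam : ℝ} (hA : A.IsSymm) {E : ℝ} {e : ι → ℝ} (he : ∀ x, 0 < e x)
    (v : ι → ℝ) (z : ι) {u : ℝ} (hu : |u| ≤ lam) :
    1 / (1 + ‖pz A (WV E e v) E z‖ ^ 2) ≤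
      2 * (1 + lam ^ 2) * ‖Gr A (WV E e (Function.update v z u)) z z‖ ^ 2 := by
  rw [WV_update]
  exact inv_le_norm_Gr hA (WV_neg he v) E z hu

end P365T2.H597
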