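import Vale.Agent.P365.T2.H862.GoodL
import Vale.Agent.P365.T2.H720.LogC
import Vale.Agent.P365.Open.OneSite

/-!
# P365 T2, (LOG) of the centre trick (helper597): along the resonance the logarithm of
`centre / actual value` of a sum of squares `|p + q t|²` costs a constant times the content, for
every law with density comparable to the third power of the depth (862's `EdgeLaw`; `nuS`).
-/

set_option linter.all false

namespace P365T2.H597

open MeasureTheory ProbabilityTheory Complex Set P365L P365O P365T1 P365T2.H862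
open P365T2.H720.LogC (uc Aq Am)
open scoped ENNReal NNReal Real

variable {lam a b : ℝ} {ν : Measure ℝ}

/-- the circle average against the Cauchy law -/
theorem avg_eq_nu {Γ : ℝ} (hΓ : 0 < Γ) (c : ℝ) (g : ℝ → ℝ) :
    avg c Γ g = ∫ x, g (c + Γ * x) ∂nu := by
  rw [nu_integral_real, avg]
  have h1 : ∀ x : ℝ, (π⁻¹ * (x ^ 2 + 1)⁻¹) * g (c + Γ * x) =
      (fun y => Γ ^ 2 / π * (g (c + y) * (dn c Γ (c + y))⁻¹)) (Γ * x) := by
    intro x
    simp only [dn]
    have h2 : (c + Γ * x - c) ^ 2 + Γ ^ 2 = Γ ^ 2 * (x ^ 2 + 1) := by ring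
    rw [h2]
    have h3 : x ^ 2 + 1 ≠ 0 := by positivity
    have h5 : (π : ℝ) ≠ 0 := Real.pi_ne_zero
    field_simp
  simp only [h1]
  rw [Measure.integral_comp_mul_left (fun y => Γ ^ 2 / π * (g (c + y) * (dn c Γ (c + y))⁻¹)) Γ,
    integral_const_mul, integral_add_left_eq_self (fun v => g v * (dn c Γ v)⁻¹) c,
    abs_of_pos (inv_pos.2 hΓ), smul_eq_mul]
  field_simp

/-- `1/(v - s)` is on the circle of centre `i/(2Γ)` and radius `1/(2Γ)` -/
theorem inv_circle {Γ : ℝ} (hΓ : 0 < Γ) (c x : ℝ) :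
    1 / (((c + Γ * x : ℝ) : ℂ) - ((c : ℂ) + Γ * I)) =
      I / (2 * Γ) - I / (2 * Γ) * uc x := by
  unfold uc
  have h1 : (x : ℂ) - I ≠ 0 := cau_sub_ne (by simp) x
  have h2 : (Γ : ℂ) ≠ 0 := by exact_mod_cast hΓ.ne'
  have h3 : ((c + Γ * x : ℝ) : ℂ) - ((c : ℂ) + Γ * I) = Γ * ((x : ℂ) - I) := by
    push_cast; ring
  rw [h3]
  field_simp
  ring_nf
  rw [Complex.I_sq]
  ring

theorem avg_one {Γ : ℝ} (hΓ : 0 < Γ) (c : ℝ) : avg c Γ (fun _ => 1) = 1 := by
  rw [avg]
  simp only [one_mul]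
  rw [integral_dn_inv hΓ]
  have h5 : (π : ℝ) ≠ 0 := Real.pi_ne_zero
  field_simp

/-- lower bound of the mass at a good position -/
theorem EdgeLaw.Mn_ge (h : EdgeLaw lam a b ν) {Γ : ℝ} (hΓ : 0 < Γ) {c : ℝ}
    (hg : good lam c Γ) : a * π / 16 * (ph lam c ^ 3 / Γ) ≤ Mn ν c Γ := by
  obtain ⟨ρ, hm, hb, h0, hs, hi⟩ := h.integral_eq
  have hlam := h.lam_pos
  have ha0 := h.a_pos
  have hb0 := h.b_pos
  have hπ := Real.pi_pos
  have hφ : 0 < ph lam c := lt_of_lt_of_le (by positivity) hg.1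
  have h3 := arc_half hΓ c (g := fun _ => 1) measurable_const (fun _ => zero_le_one)
    (fun _ => by rw [avg_one hΓ]; norm_num)
  rw [avg_one hΓ] at h3
  rw [Mn, hi]
  calc a * π / 16 * (ph lam c ^ 3 / Γ) = (a * ph lam c ^ 3 / 8) * (π / Γ * (1 / 2)) := by
        field_simp; ring
    _ ≤ ∫ v, (a * ph lam c ^ 3 / 8) *
          {v | |v - c| ≤ 20 * Γ}.indicator (fun v => 1 * (dn c Γ v)⁻¹) v := by
        rw [integral_const_mul]
        exact mul_le_mul_of_nonneg_left h3 (by positivity)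
    _ ≤ ∫ v, ρ v * (dn c Γ v)⁻¹ := by
        refine integral_mono_of_nonneg (Filter.Eventually.of_forall fun v => ?_) ?_
          (Filter.Eventually.of_forall fun v => ?_)
        · refine mul_nonneg (by positivity) (indicator_nonneg (fun v _ => ?_) v)
          exact mul_nonneg zero_le_one (inv_nonneg.2 (dn_pos hΓ c v).le)
        · have h5 : Integrable (fun v => b * lam ^ 3 * (dn c Γ v)⁻¹) :=
            (integrable_dn_inv hΓ c).const_mul _
          refine h5.mono' (hm.mul (continuous_dn c Γ).measurable.inv).aestronglyMeasurable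
            (Filter.Eventually.of_forall fun v => ?_)
          have hd := inv_nonneg.2 (dn_pos hΓ c v).le
          rw [Real.norm_eq_abs, abs_of_nonneg (mul_nonneg (h0 v) hd)]
          refine mul_le_mul_of_nonneg_right ((hb v).2.trans ?_) hd
          exact mul_le_mul_of_nonneg_left (pow_le_pow_left₀ (ph_nonneg _ _) (ph_le hlam.le v) 3)
            hb0.le
        · have hd := inv_nonneg.2 (dn_pos hΓ c v).le
          show a * ph lam c ^ 3 / 8 * {v | |v - c| ≤ 20 * Γ}.indicator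
            (fun v => 1 * (dn c Γ v)⁻¹) v ≤ ρ v * (dn c Γ v)⁻¹
          by_cases hv : v ∈ {v | |v - c| ≤ 20 * Γ}
          · rw [indicator_of_mem hv, one_mul]
            refine mul_le_mul_of_nonneg_right ?_ hd
            have h6 : ph lam c / 2 ≤ ph lam v := by
              have h7 := ph_lip lam c v
              rw [abs_sub_comm] at h7
              have h8 : |v - c| ≤ 20 * Γ := hv
              linarith [hg.1]
            have h7 : (ph lam c / 2) ^ 3 ≤ ph lam v ^ 3 := pow_le_pow_left₀ (by positivity) h6 3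
            calc a * ph lam c ^ 3 / 8 = a * (ph lam c / 2) ^ 3 := by ring
              _ ≤ a * ph lam v ^ 3 := mul_le_mul_of_nonneg_left h7 ha0.le
              _ ≤ ρ v := (hb v).1
          · rw [indicator_of_notMem hv, mul_zero]
            exact mul_nonneg (h0 v) hd

/-- constant of the bounded part -/
noncomputable def CL (lam b : ℝ) : ℝ := 24 * b * lam ^ 2 * (1 + 2 * lam ^ 2) + CB lam b

/-- **near / far**: a bounded function with bounded circle average -/
theorem EdgeLaw.near_far (h : EdgeLaw lam a b ν) {Γ : ℝ} (hΓ : 0 < Γ) (c : ℝ) {L : ℝ → ℝ}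
    (hLm : Measurable L) (hL0 : ∀ v, 0 ≤ L v) {M : ℝ} (hLM : ∀ v, L v ≤ M) :
    ∫ v, L v * (dn c Γ v)⁻¹ ∂ν ≤
      64 * b / a * avg c Γ L * Mn ν c Γ + CL lam b * M / (1 + c ^ 2 + Γ ^ 2) := by
  haveI := h.prob
  obtain ⟨ρ, hm, hb, h0, hs, hi⟩ := h.integral_eq
  have hlam := h.lam_pos
  have ha0 := h.a_pos
  have hb0 := h.b_pos
  have hπ := Real.pi_pos
  have hM : 0 ≤ M := (hL0 0).trans (hLM 0)
  have hA := avg_nonneg hΓ c hL0
  have hMn := EdgeLaw.Mn_nonneg (ν := ν) hΓ c
  have hCB : 0 ≤ CB lam b := by unfold CB; positivity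
  have hD : 0 < 1 + c ^ 2 + Γ ^ 2 := by positivity
  by_cases hg : good lam c Γ
  · -- good position
    have hφ : 0 < ph lam c := lt_of_lt_of_le (by positivity) hg.1
    have hc : |c| ≤ lam := by
      by_contra hcon
      push Not at hcon
      rw [ph_zero hcon.le] at hφ
      exact lt_irrefl _ hφ
    have h1 : ∀ v, ρ v * (L v * (dn c Γ v)⁻¹) ≤
        4 * b * ph lam c ^ 3 * (L v * (dn c Γ v)⁻¹) +
          (Icc (-lam) lam).indicator (fun _ => 12 * b * lam * M) v := by
      intro v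
      have hd := dn_pos hΓ c v
      by_cases hv : v ∈ Icc (-lam) lam
      · rw [indicator_of_mem hv]
        have h2 : ph lam v ≤ ph lam c + |v - c| := ph_lip lam v c
        have h3 : ph lam v ^ 3 ≤ 4 * ph lam c ^ 3 + 4 * |v - c| ^ 3 := by
          have h4 : ph lam v ^ 3 ≤ (ph lam c + |v - c|) ^ 3 :=
            pow_le_pow_left₀ (ph_nonneg _ _) h2 3
          have h5 := ph_nonneg lam c
          have h6 := abs_nonneg (v - c)
          nlinarith [mul_nonneg (add_nonneg h5 h6) (sq_nonneg (ph lam c - |v - c|))]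
        have h7 : ρ v ≤ b * (4 * ph lam c ^ 3 + 4 * |v - c| ^ 3) :=
          (hb v).2.trans (mul_le_mul_of_nonneg_left h3 hb0.le)
        have h8 : |v - c| ^ 3 * (dn c Γ v)⁻¹ ≤ 3 * lam := by
          rw [← div_eq_mul_inv, div_le_iff₀ hd]
          have h9 : |v - c| ≤ 3 * lam := by
            have := abs_sub v c
            have h10 : |v| ≤ lam := abs_le.2 hv
            linarith
          have h11 : |v - c| ^ 2 ≤ dn c Γ v := by
            rw [sq_abs]
            unfold dn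
            linarith [sq_nonneg Γ]
          calc |v - c| ^ 3 = |v - c| * |v - c| ^ 2 := by ring
            _ ≤ (3 * lam) * dn c Γ v :=
              mul_le_mul h9 h11 (sq_nonneg _) (by positivity)
        have h9 : |v - c| ^ 3 * (L v * (dn c Γ v)⁻¹) ≤ M * (3 * lam) := by
          calc |v - c| ^ 3 * (L v * (dn c Γ v)⁻¹) = L v * (|v - c| ^ 3 * (dn c Γ v)⁻¹) := by ring
            _ ≤ M * (3 * lam) := mul_le_mul (hLM v) h8
              (mul_nonneg (by positivity) (inv_nonneg.2 hd.le)) hM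
        calc ρ v * (L v * (dn c Γ v)⁻¹)
            ≤ b * (4 * ph lam c ^ 3 + 4 * |v - c| ^ 3) * (L v * (dn c Γ v)⁻¹) :=
              mul_le_mul_of_nonneg_right h7 (mul_nonneg (hL0 v) (inv_nonneg.2 hd.le))
          _ = 4 * b * ph lam c ^ 3 * (L v * (dn c Γ v)⁻¹) +
                4 * b * (|v - c| ^ 3 * (L v * (dn c Γ v)⁻¹)) := by ring
          _ ≤ 4 * b * ph lam c ^ 3 * (L v * (dn c Γ v)⁻¹) + 4 * b * (M * (3 * lam)) := by gcongr
          _ = _ := by ring
      · rw [indicator_of_notMem hv, hs v hv, zero_mul, add_zero]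
        exact mul_nonneg (mul_nonneg (by positivity) (pow_nonneg (ph_nonneg _ _) 3))
          (mul_nonneg (hL0 v) (inv_nonneg.2 hd.le))
    have hI1 : Integrable (fun v => 4 * b * ph lam c ^ 3 * (L v * (dn c Γ v)⁻¹)) :=
      (integrable_mul_dn hΓ c hLm hL0 hLM).const_mul _
    have hI2 : Integrable ((Icc (-lam) lam).indicator fun _ : ℝ => 12 * b * lam * M) :=
      (continuous_const.integrableOn_Icc).integrable_indicator measurableSet_Icc
    have h2 : ∫ v, ρ v * (L v * (dn c Γ v)⁻¹) ≤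
        ∫ v, (4 * b * ph lam c ^ 3 * (L v * (dn c Γ v)⁻¹) +
          (Icc (-lam) lam).indicator (fun _ => 12 * b * lam * M) v) :=
      integral_mono_of_nonneg (Filter.Eventually.of_forall fun v =>
        mul_nonneg (h0 v) (mul_nonneg (hL0 v) (inv_nonneg.2 (dn_pos hΓ c v).le))) (hI1.add hI2)
        (Filter.Eventually.of_forall h1)
    have h3 : ∫ v, (4 * b * ph lam c ^ 3 * (L v * (dn c Γ v)⁻¹) +
          (Icc (-lam) lam).indicator (fun _ => 12 * b * lam * M) v) =
        4 * b * ph lam c ^ 3 * (π / Γ * avg c Γ L) + 24 * b * lam ^ 2 * M := by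
      rw [integral_add hI1 hI2, integral_const_mul,
        integral_indicator measurableSet_Icc, setIntegral_const, Real.volume_real_Icc_of_le
          (by linarith), smul_eq_mul]
      have h4 : ∫ v, L v * (dn c Γ v)⁻¹ = π / Γ * avg c Γ L := by
        rw [avg]
        field_simp
      rw [h4]
      ring
    have h5 := EdgeLaw.Mn_ge h hΓ hg
    have h6 : 4 * b * ph lam c ^ 3 * (π / Γ * avg c Γ L) ≤
        64 * b / a * avg c Γ L * Mn ν c Γ := by
      calc 4 * b * ph lam c ^ 3 * (π / Γ * avg c Γ L)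
          = 64 * b / a * avg c Γ L * (a * π / 16 * (ph lam c ^ 3 / Γ)) := by
            field_simp; ring
        _ ≤ _ := mul_le_mul_of_nonneg_left h5 (by positivity)
    have h7 : 24 * b * lam ^ 2 * M ≤ CL lam b * M / (1 + c ^ 2 + Γ ^ 2) := by
      rw [le_div_iff₀ hD]
      have h8 : c ^ 2 ≤ lam ^ 2 := by
        have := pow_le_pow_left₀ (abs_nonneg c) hc 2
        rwa [sq_abs] at this
      have h9 : Γ ^ 2 ≤ lam ^ 2 := by
        have h10 : Γ ≤ lam := by
          have := ph_le hlam.le c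
          have := hg.1
          linarith
        exact pow_le_pow_left₀ hΓ.le h10 2
      have h10 : 24 * b * lam ^ 2 * M * (1 + c ^ 2 + Γ ^ 2) ≤
          24 * b * lam ^ 2 * M * (1 + 2 * lam ^ 2) :=
        mul_le_mul_of_nonneg_left (by linarith) (by positivity)
      have h11 : 0 ≤ CB lam b * M := mul_nonneg hCB hM
      unfold CL
      nlinarith
    rw [hi]
    linarith
  · -- bad position
    have h1 := h.Mn_bad hΓ hg
    have h2 : ∫ v, L v * (dn c Γ v)⁻¹ ∂ν ≤ M * Mn ν c Γ := by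
      rw [Mn, ← integral_const_mul]
      refine integral_mono_of_nonneg (Filter.Eventually.of_forall fun v =>
        mul_nonneg (hL0 v) (inv_nonneg.2 (dn_pos hΓ c v).le)) ?_
        (Filter.Eventually.of_forall fun v =>
          mul_le_mul_of_nonneg_right (hLM v) (inv_nonneg.2 (dn_pos hΓ c v).le))
      refine Integrable.const_mul (Integrable.of_bound
        (continuous_dn _ _).measurable.inv.aestronglyMeasurable (Γ ^ 2)⁻¹
        (Filter.Eventually.of_forall fun v => ?_)) _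
      show ‖(dn c Γ v)⁻¹‖ ≤ _
      rw [Real.norm_eq_abs, abs_of_nonneg (inv_nonneg.2 (dn_pos hΓ _ _).le)]
      exact inv_anti₀ (by positivity) (dn_ge _ _)
    have h3 : M * Mn ν c Γ ≤ M * (CB lam b / (1 + c ^ 2 + Γ ^ 2)) :=
      mul_le_mul_of_nonneg_left h1 hM
    have h4 : M * (CB lam b / (1 + c ^ 2 + Γ ^ 2)) ≤ CL lam b * M / (1 + c ^ 2 + Γ ^ 2) := by
      rw [← mul_div_assoc]
      apply div_le_div_of_nonneg_right _ hD.le
      unfold CL
      have : 0 ≤ 24 * b * lam ^ 2 * (1 + 2 * lam ^ 2) * M := by positivity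
      nlinarith
    have h5 : 0 ≤ 64 * b / a * avg c Γ L * Mn ν c Γ := by positivity
    linarith

variable {κ : Type*} [Fintype κ]

/-- sum of squares along the line of `V`, resonance `c + iΓ` -/
noncomputable def Av (w : κ → ℝ) (p q : κ → ℂ) (c Γ v : ℝ) : ℝ :=
  ∑ k, w k * ‖p k + q k * (1 / ((v : ℂ) - ((c : ℂ) + Γ * I)))‖ ^ 2

/-- its circle mean -/
noncomputable def A0 (w : κ → ℝ) (p q : κ → ℂ) (Γ : ℝ) : ℝ :=
  ∑ k, w k * (‖p k + q k * (I / (2 * Γ))‖ ^ 2 + ‖q k‖ ^ 2 / (4 * Γ ^ 2))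

theorem Av_eq {Γ : ℝ} (hΓ : 0 < Γ) (w : κ → ℝ) (p q : κ → ℂ) (c x : ℝ) :
    Av w p q c Γ (c + Γ * x) =
      Aq w (fun k => p k + q k * (I / (2 * Γ))) (fun k => q k * (I / (2 * Γ))) x := by
  unfold Av Aq
  refine Finset.sum_congr rfl fun k _ => ?_
  rw [inv_circle hΓ]
  congr 3
  ring

theorem A0_eq {Γ : ℝ} (hΓ : 0 < Γ) (w : κ → ℝ) (p q : κ → ℂ) :
    A0 w p q Γ = Am w (fun k => p k + q k * (I / (2 * Γ))) (fun k => q k * (I / (2 * Γ))) := by
  unfold A0 Am
  refine Finset.sum_congr rfl fun k _ => ?_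
  congr 2
  rw [norm_mul, norm_div, Complex.norm_I, norm_mul, Complex.norm_real,
    Real.norm_of_nonneg hΓ.le]
  simp only [Complex.norm_ofNat]
  field_simp
  ring

/-- **(LOG)** -/
theorem EdgeLaw.log_law (h : EdgeLaw lam a b ν) {Γ : ℝ} (hΓ : 0 < Γ) (c : ℝ)
    {w : κ → ℝ} (hw : ∀ k, 0 ≤ w k) (p q : κ → ℂ) {L : ℝ → ℝ}
    (hLm : Measurable L) (hL0 : ∀ v, 0 ≤ L v) {M : ℝ} (hLM : ∀ v, L v ≤ M) {c1 : ℝ}
    (hlog : ∀ v, (Av w p q c Γ v ≠ 0 ∨ A0 w p q Γ = 0) →
      L v ≤ c1 + max 0 (Real.log (A0 w p q Γ / Av w p q c Γ v))) :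
    ∫ v, L v * (dn c Γ v)⁻¹ ∂ν ≤
      64 * b / a * (c1 + 2 * Real.log 2) * Mn ν c Γ +
        CL lam b * M / (1 + c ^ 2 + Γ ^ 2) := by
  have ha0 := h.a_pos
  have hb0 := h.b_pos
  have hMn := EdgeLaw.Mn_nonneg (ν := ν) hΓ c
  refine (EdgeLaw.near_far h hΓ c hLm hL0 hLM).trans ?_
  have h1 : avg c Γ L ≤ c1 + 2 * Real.log 2 := by
    rw [avg_eq_nu hΓ]
    have hint : Integrable (fun x => L (c + Γ * x)) nu := by
      refine Integrable.of_bound (hLm.comp (by fun_prop)).aestronglyMeasurable M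
        (Filter.Eventually.of_forall fun x => ?_)
      rw [Real.norm_eq_abs, abs_of_nonneg (hL0 _)]
      exact hLM _
    refine P365T2.H720.LogC.jensen hw (fun k => p k + q k * (I / (2 * Γ)))
      (fun k => q k * (I / (2 * Γ))) hint fun x hx => ?_
    have h2 := hlog (c + Γ * x)
    rw [Av_eq hΓ, A0_eq hΓ] at h2
    exact h2 hx
  have h2 : 64 * b / a * avg c Γ L * Mn ν c Γ ≤
      64 * b / a * (c1 + 2 * Real.log 2) * Mn ν c Γ :=
    mul_le_mul_of_nonneg_right (mul_le_mul_of_nonneg_left h1 (by positivity)) hMn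
  linarith

end P365T2.H597
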